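import Mathlib
import Vale.Agent.Results.P028.BoundedDivisors
import Vale.Agent.Results.P028.GcdSumCriterion

open MeasureTheory
open scoped Classical

namespace Vale.Agent.Results.P028.AAllResults

/-- The gcd-sum criterion for inhomogeneous approximation without monotonicity, together with
its Duffin-Schaeffer form for integers with a bounded number of divisors. -/
theorem result :
    (∀ (S : Set ℕ) (C : ℝ),
      (∀ q' ∈ S, ∑ q ∈ (Finset.range q').filter (fun q => q ∈ S), (Nat.gcd q q' : ℝ) ≤ C * q') →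
      ∀ (γ : ℕ → ℝ) (ψ : ℕ → ℝ), (∀ q, 0 ≤ ψ q) → ¬ Summable (S.indicator ψ) →
      ∀ᵐ x : ℝ, {q : ℕ | q ∈ S ∧ 0 < q ∧ ∃ a : ℤ, |(q : ℝ) * x - a - γ q| < ψ q}.Infinite)
    ∧
    (∀ (γ : ℝ) (ψ : ℕ → ℝ), (∀ q, 0 ≤ ψ q) → ∀ T : ℕ,
      ¬ Summable (fun q : ℕ =>
        if q.divisors.card ≤ T then (q.totient : ℝ) / q * ψ q else 0) →
      ∀ᵐ x : ℝ, {q : ℕ | 0 < q ∧ ∃ a : ℤ, |(q : ℝ) * x - a - γ| < ψ q}.Infinite) :=
  ⟨fun S C hS γ ψ hψ hdiv => GcdSumCriterion.result S C hS γ ψ hψ hdiv,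
   fun γ ψ hψ T hdiv => BoundedDivisors.result γ ψ hψ T hdiv⟩

end Vale.Agent.Results.P028.AAllResults
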